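import Vale.Agent.P042.R2.H757.Spec

/-!
P042.MultiplicativeStatistics: rows SMALL and SMOOTH (helper342).
-/

namespace Vale.Agent.P042.H757

open Finset Filter Topology

theorem rowSmooth : StSmooth := by
  intro Q N A hA hs
  have hb : ∀ n ∈ A, ∀ p : ℕ, n.factorization p ≤ Nat.log 2 N := by
    intro n hn p
    have hnN := Finset.mem_Icc.1 (hA hn)
    by_cases hp : p.Prime
    · apply Nat.le_log_of_pow_le (by norm_num)
      calc 2 ^ (n.factorization p) ≤ p ^ (n.factorization p) :=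
            Nat.pow_le_pow_left hp.two_le _
        _ ≤ n := Nat.le_of_dvd (by omega) (Nat.ordProj_dvd n p)
        _ ≤ N := hnN.2
    · rw [Nat.factorization_eq_zero_of_not_prime _ hp]
      exact Nat.zero_le _
  let f : ℕ → (Fin Q → Fin (Nat.log 2 N + 1)) := fun n i =>
    ⟨min (n.factorization (i.1 + 1)) (Nat.log 2 N), by omega⟩
  have hinj : Set.InjOn f (A : Set ℕ) := by
    intro m hm n hn h
    have hm0 : m ≠ 0 := by
      have := Finset.mem_Icc.1 (hA hm); omega
    have hn0 : n ≠ 0 := by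
      have := Finset.mem_Icc.1 (hA hn); omega
    apply Nat.eq_of_factorization_eq hm0 hn0
    intro p
    by_cases hp : p.Prime
    · by_cases hpQ : p ≤ Q
      · have h1 : 1 ≤ p := hp.one_le
        have h2 := congrFun h ⟨p - 1, by omega⟩
        have h3 : min (m.factorization (p - 1 + 1)) (Nat.log 2 N) =
            min (n.factorization (p - 1 + 1)) (Nat.log 2 N) := congrArg Fin.val h2
        rw [Nat.sub_add_cancel h1] at h3
        have h4 := hb m hm p
        have h5 := hb n hn p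
        omega
      · have h6 : ∀ u ∈ A, u.factorization p = 0 := by
          intro u hu
          apply Nat.factorization_eq_zero_of_not_dvd
          intro hd
          exact hpQ (hs u hu p hp hd)
        rw [h6 m hm, h6 n hn]
    · rw [Nat.factorization_eq_zero_of_not_prime _ hp, Nat.factorization_eq_zero_of_not_prime _ hp]
  have := Finset.card_le_card_of_injOn f (fun _ _ => Finset.mem_univ _) hinj
  simpa using this

/-- a power less than one is negligible -/
theorem rpow_le_eventually {c η : ℝ} (hc : c < 1) (hη : 0 < η) :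
    ∀ᶠ y : ℝ in atTop, y ^ c ≤ η * y := by
  have h1 : Tendsto (fun y : ℝ => y ^ (-(1 - c))) atTop (𝓝 0) :=
    tendsto_rpow_neg_atTop (by linarith)
  filter_upwards [h1.eventually (gt_mem_nhds hη), eventually_gt_atTop (0 : ℝ)] with y hy h0
  have h2 : y ^ c = y ^ (-(1 - c)) * y := by
    rw [← Real.rpow_add_one h0.ne']
    congr 1
    ring
  rw [h2]
  exact mul_le_mul_of_nonneg_right hy.le h0.le

theorem rowSmall : StSmall := by
  intro k hk r col v hv
  obtain ⟨c, hc, x0, hx⟩ := hv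
  have hk0 : (0 : ℝ) < 2 * k := by
    have : (0 : ℝ) < k := by exact_mod_cast (by omega : 0 < k)
    linarith
  set θ : ℝ := 1 / (2 * k : ℝ) with hθ
  have hθ0 : 0 < θ := by positivity
  set η : ℝ := θ / (2 * (1 + θ)) with hη
  have hη0 : 0 < η := by positivity
  have hη1 : η < 1 := by
    rw [hη, div_lt_one (by positivity)]
    linarith
  have hθη : (1 + θ) * (1 - η) = 1 + θ / 2 := by
    rw [hη]
    field_simp
    ring
  -- the real variable `L = log N`
  have hL : Tendsto (fun N : ℕ => Real.log N) atTop atTop :=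
    Real.tendsto_log_atTop.comp tendsto_natCast_atTop_atTop
  have hpow : Tendsto (fun L : ℝ => L ^ (1 + θ)) atTop atTop :=
    tendsto_rpow_atTop (by linarith)
  have hpow2 : Tendsto (fun L : ℝ => L ^ (θ / 2)) atTop atTop :=
    tendsto_rpow_atTop (by linarith)
  have hfl : Tendsto (fun L : ℝ => ⌊L ^ (1 + θ)⌋₊) atTop atTop :=
    tendsto_nat_floor_atTop.comp hpow
  have hlogx : Tendsto (fun x : ℕ => Real.log x) atTop atTop := hL
  have key : ∀ᶠ L : ℝ in atTop, 2 * L + 1 <
      (((Icc 1 ⌊L ^ (1 + θ)⌋₊).filter (fun p => p.Prime ∧ col p = v)).card : ℝ) := by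
    have e1 : ∀ᶠ x : ℕ in atTop, (Real.log x) ^ c ≤ η * Real.log x :=
      hlogx.eventually (rpow_le_eventually hc hη0)
    filter_upwards [hfl.eventually e1, hfl.eventually (eventually_ge_atTop x0),
      hpow.eventually (eventually_ge_atTop (2 : ℝ)), hpow2.eventually (eventually_gt_atTop (6 : ℝ)),
      eventually_ge_atTop (1 : ℝ)] with L h1 h2 h3 h4 h5
    set x : ℕ := ⌊L ^ (1 + θ)⌋₊ with hxdef
    have hL0 : 0 < L := by linarith
    have hxge : L ^ (1 + θ) / 2 ≤ (x : ℝ) := by
      have := Nat.sub_one_lt_floor (L ^ (1 + θ))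
      linarith
    have hx1 : (1 : ℝ) ≤ x := by linarith
    have hx0' : (0 : ℝ) < x := by linarith
    refine lt_of_lt_of_le ?_ (hx x h2)
    have h6 : (x : ℝ) ^ (1 - η) ≤ (x : ℝ) * Real.exp (-(Real.log x) ^ c) := by
      have h7 : Real.exp (-(η * Real.log x)) ≤ Real.exp (-(Real.log x) ^ c) :=
        Real.exp_le_exp.2 (by linarith)
      have h8 : (x : ℝ) ^ (1 - η) = x * Real.exp (-(η * Real.log x)) := by
        rw [Real.rpow_sub hx0', Real.rpow_one, div_eq_mul_inv, Real.exp_neg,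
          Real.rpow_def_of_pos hx0', mul_comm (Real.log (x : ℝ)) η]
      rw [h8]
      exact mul_le_mul_of_nonneg_left h7 hx0'.le
    refine lt_of_lt_of_le ?_ h6
    have h9 : (L ^ (1 + θ) / 2) ^ (1 - η) ≤ (x : ℝ) ^ (1 - η) :=
      Real.rpow_le_rpow (by positivity) hxge (by linarith)
    refine lt_of_lt_of_le ?_ h9
    have h10 : (L ^ (1 + θ) / 2) ^ (1 - η) = L ^ (1 + θ / 2) * (1 / 2 : ℝ) ^ (1 - η) := by
      rw [div_eq_mul_one_div, Real.mul_rpow (by positivity) (by norm_num), ← Real.rpow_mul hL0.le,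
        hθη]
    have h11 : (1 / 2 : ℝ) ≤ (1 / 2 : ℝ) ^ (1 - η) := by
      calc (1 / 2 : ℝ) = (1 / 2 : ℝ) ^ (1 : ℝ) := (Real.rpow_one _).symm
        _ ≤ _ := Real.rpow_le_rpow_of_exponent_ge (by norm_num) (by norm_num) (by linarith)
    have h12 : L ^ (1 + θ / 2) = L * L ^ (θ / 2) := by
      rw [Real.rpow_add hL0, Real.rpow_one]
    rw [h10, h12]
    have h13 : L * 6 < L * L ^ (θ / 2) := mul_lt_mul_of_pos_left h4 hL0
    have h14 : L * L ^ (θ / 2) * (1 / 2 : ℝ) ≤ L * L ^ (θ / 2) * (1 / 2 : ℝ) ^ (1 - η) :=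
      mul_le_mul_of_nonneg_left h11 (by positivity)
    nlinarith
  obtain ⟨N0, hN0⟩ := (((hL.eventually key).and (eventually_ge_atTop 1))).exists_forall_of_atTop
  refine ⟨N0, fun N hN => ?_⟩
  obtain ⟨h1, h2⟩ := hN0 N hN
  have h3 : ((Nat.log 2 N : ℕ) : ℝ) ≤ 2 * Real.log N := by
    have h4 : (2 : ℝ) ^ (Nat.log 2 N) ≤ N := by
      exact_mod_cast Nat.pow_log_le_self 2 (by omega : N ≠ 0)
    have h5 : (Nat.log 2 N : ℝ) * Real.log 2 ≤ Real.log N := by
      rw [← Real.log_pow]
      exact Real.log_le_log (by positivity) h4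
    have h6 := Real.log_two_gt_d9
    have h7 : (0 : ℝ) ≤ (Nat.log 2 N : ℕ) := Nat.cast_nonneg _
    nlinarith
  have h8 : ((Nat.log 2 N + 1 : ℕ) : ℝ) <
      (((Icc 1 ⌊(Real.log N) ^ (1 + θ)⌋₊).filter (fun p => p.Prime ∧ col p = v)).card : ℝ) := by
    push_cast
    linarith
  exact_mod_cast h8

end Vale.Agent.P042.H757
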